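import Crest.Agent.N250.G.Bern
import Crest.Agent.N250.Re.Ring
import Crest.Agent.N250.MP.Max
import Crest.Agent.N250.T.Stm

-- ▼ part N250/Be/Abs
section

/-!
# Row 250: interior Bernstein estimate, the algebraic step at a maximum point (helper76)
-/

set_option autoImplicit false
set_option linter.unusedSectionVars false

noncomputable section

namespace Crest.Agent.N250

open Crest.Agent.N222

namespace Be

theorem root (n : ℕ) (m : ℝ) (hm : 1 ≤ m) : ∃ l : ℝ, 1 ≤ l ∧ l ^ (n + 1) = m := by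
  refine ⟨m ^ ((n + 1 : ℕ) : ℝ)⁻¹, Real.one_le_rpow hm (by positivity), ?_⟩
  exact Real.rpow_inv_natCast_pow (by linarith) (Nat.succ_ne_zero n)

theorem young (ε y l m : ℝ) (hε : 0 < ε) (hy : 0 ≤ y) (hl : 0 ≤ l) (hm : l ^ 3 ≤ m) :
    y * (l * m) ≤ ε * m ^ 2 + y ^ 3 / (2 * ε ^ 2) := by
  have hm0 : 0 ≤ m := le_trans (by positivity) hm
  have h0 : 0 ≤ y ^ 3 / (2 * ε ^ 2) := by positivity
  rcases le_or_gt y (ε * l ^ 2) with h | h
  · have : y * (l * m) ≤ ε * l ^ 2 * (l * m) := mul_le_mul_of_nonneg_right h (by positivity)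
    have h2 : ε * l ^ 2 * (l * m) = ε * m * l ^ 3 := by ring
    have h3 : ε * m * l ^ 3 ≤ ε * m * m := mul_le_mul_of_nonneg_left hm (by positivity)
    nlinarith
  · have h1 : y * (l * m) ≤ ε * m ^ 2 / 2 + (y * l) ^ 2 / (2 * ε) := by
      have : ε * m ^ 2 / 2 + (y * l) ^ 2 / (2 * ε) - y * (l * m) = (ε * m - y * l) ^ 2 / (2 * ε) := by
        field_simp; ring
      have : 0 ≤ (ε * m - y * l) ^ 2 / (2 * ε) := by positivity
      linarith
    have h2 : (y * l) ^ 2 / (2 * ε) ≤ y ^ 3 / (2 * ε ^ 2) := by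
      rw [div_le_div_iff₀ (by positivity) (by positivity)]
      have : y ^ 2 * (ε * l ^ 2) ≤ y ^ 2 * y := mul_le_mul_of_nonneg_left h.le (by positivity)
      nlinarith
    have : 0 ≤ ε * m ^ 2 := by positivity
    linarith

theorem seven (C s : ℝ) (hC : 0 ≤ C) (hs : 0 ≤ s) : C * s ^ 7 ≤ s ^ 8 / 2 + C * (2 * C) ^ 7 := by
  rcases le_or_gt s (2 * C) with h | h
  · have : C * s ^ 7 ≤ C * (2 * C) ^ 7 := mul_le_mul_of_nonneg_left (pow_le_pow_left₀ hs h 7) hC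
    have : 0 ≤ s ^ 8 / 2 := by positivity
    linarith
  · have : (2 * C) * s ^ 7 ≤ s * s ^ 7 := mul_le_mul_of_nonneg_right h.le (by positivity)
    have : 0 ≤ C * (2 * C) ^ 7 := by positivity
    nlinarith

/-- the real inequality for the product `(Λ + u_k) u_{k+1}` -/
theorem real_step (A C1 C2 C3 : ℝ) (hA : 0 ≤ A) (h1 : 0 ≤ C1) (h2 : 0 ≤ C2) :
    ∃ Λ C : ℝ, 1 ≤ Λ ∧ 0 ≤ C ∧ ∀ a y z s l m Ba Bb G : ℝ, 0 ≤ a → a ≤ A → 0 ≤ y → 1 ≤ s →
      s ^ 2 = max 1 y → m = max 1 z → 0 ≤ z → 0 ≤ l → l ^ 3 ≤ m →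
      Ba ≤ -2 * y ^ 2 + C1 * s ^ 3 → Bb ≤ -2 * z ^ 2 + C2 * (y * (s ^ 4 + l * m)) →
      |G| ≤ C3 * (y ^ 2 * z) → (Λ + a) * Bb + Ba * y ^ 2 - 2 * G ≤ -y ^ 4 + C := by
  obtain ⟨Λ, hΛ⟩ : ∃ Λ : ℝ, Λ = 4 * C3 ^ 2 + 1 := ⟨_, rfl⟩
  obtain ⟨ε, hε0, hε1⟩ : ∃ ε : ℝ, 0 < ε ∧ C2 * ε ≤ 1 := ⟨1 / (C2 + 1), by positivity, by
    rw [mul_one_div, div_le_one (by positivity)]; linarith⟩
  obtain ⟨C6, hC60, hC6⟩ : ∃ C6 : ℝ, 0 ≤ C6 ∧ C6 = C2 / (2 * ε ^ 2) := ⟨_, by positivity, rfl⟩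
  obtain ⟨C4, hC40, hC4⟩ : ∃ C4 : ℝ, 0 ≤ C4 ∧ C4 = C2 + 1 + C6 := ⟨_, by positivity, rfl⟩
  have hΛ1 : 1 ≤ Λ := by rw [hΛ]; linarith only [sq_nonneg C3]
  have hΛ0 : 0 ≤ Λ := by linarith only [hΛ1]
  obtain ⟨C5, hC50, hC5⟩ : ∃ C5 : ℝ, 0 ≤ C5 ∧ C5 = C1 + (Λ + A) * C4 := ⟨_, by positivity, rfl⟩
  refine ⟨Λ, 1 + C5 * (2 * C5) ^ 7, hΛ1, by positivity, ?_⟩
  intro a y z s l m Ba Bb G ha haA hy hs hsy hm hz hl hlm hBa hBb hG
  have hs0 : 0 ≤ s := by linarith only [hs]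
  have hys : y ≤ s ^ 2 := hsy ▸ le_max_right _ _
  have hm2 : m ^ 2 ≤ 1 + z ^ 2 := by
    rcases le_total 1 z with h | h
    · rw [hm, max_eq_right h]; linarith only
    · rw [hm, max_eq_left h]; linarith only [sq_nonneg z]
  have e8 : 0 ≤ y ^ 4 := by positivity
  have hs8 : s ^ 8 ≤ 1 + y ^ 4 := by
    have : s ^ 8 = (s ^ 2) ^ 4 := by ring
    rw [this, hsy]
    rcases le_total 1 y with h | h
    · rw [max_eq_right h]; linarith only
    · rw [max_eq_left h]; linarith only [e8]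
  have hs6 : 1 ≤ s ^ 6 := one_le_pow₀ hs
  have hy3 : y ^ 3 ≤ s ^ 6 := by
    have := pow_le_pow_left₀ hy hys 3
    calc y ^ 3 ≤ (s ^ 2) ^ 3 := this
      _ = s ^ 6 := by ring
  have hys4 : y * s ^ 4 ≤ s ^ 6 := by
    have := mul_le_mul_of_nonneg_right hys (show 0 ≤ s ^ 4 by positivity)
    calc y * s ^ 4 ≤ s ^ 2 * s ^ 4 := this
      _ = s ^ 6 := by ring
  have hyo := young ε y l m hε0 hy hl hlm
  have e1 : C2 * (y * (l * m)) ≤ (1 + z ^ 2) + C6 * s ^ 6 := by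
    have a1 : C2 * (y * (l * m)) ≤ C2 * (ε * m ^ 2 + y ^ 3 / (2 * ε ^ 2)) :=
      mul_le_mul_of_nonneg_left hyo h2
    have a2 : C2 * ε * m ^ 2 ≤ 1 * m ^ 2 := mul_le_mul_of_nonneg_right hε1 (sq_nonneg m)
    have a3 : C6 * y ^ 3 ≤ C6 * s ^ 6 := mul_le_mul_of_nonneg_left hy3 hC60
    have a4 : C2 * (ε * m ^ 2 + y ^ 3 / (2 * ε ^ 2)) = C2 * ε * m ^ 2 + C6 * y ^ 3 := by
      rw [hC6]; ring
    linarith only [a1, a2, a3, a4, hm2]
  have e2 : Bb ≤ -z ^ 2 + C4 * s ^ 6 := by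
    have a1 : C2 * (y * s ^ 4) ≤ C2 * s ^ 6 := mul_le_mul_of_nonneg_left hys4 h2
    have a2 : C4 * s ^ 6 = C2 * s ^ 6 + s ^ 6 + C6 * s ^ 6 := by rw [hC4]; ring
    have a3 : C2 * (y * (s ^ 4 + l * m)) = C2 * (y * s ^ 4) + C2 * (y * (l * m)) := by ring
    linarith only [a1, a2, a3, e1, hBb, hs6]
  have hs67 : s ^ 6 ≤ s ^ 7 := pow_le_pow_right₀ hs (by norm_num)
  have e3 : (Λ + a) * Bb ≤ -Λ * z ^ 2 + (Λ + A) * C4 * s ^ 7 := by
    have a1 : (Λ + a) * Bb ≤ (Λ + a) * (-z ^ 2 + C4 * s ^ 6) :=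
      mul_le_mul_of_nonneg_left e2 (by positivity)
    have a2 : (Λ + a) * (C4 * s ^ 6) ≤ (Λ + A) * (C4 * s ^ 7) :=
      mul_le_mul (by linarith only [haA]) (mul_le_mul_of_nonneg_left hs67 hC40) (by positivity)
        (by positivity)
    have a3 : 0 ≤ a * z ^ 2 := by positivity
    have a4 : (Λ + a) * (-z ^ 2 + C4 * s ^ 6) =
        -Λ * z ^ 2 - a * z ^ 2 + (Λ + a) * (C4 * s ^ 6) := by ring
    have a5 : (Λ + A) * (C4 * s ^ 7) = (Λ + A) * C4 * s ^ 7 := by ring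
    linarith only [a1, a2, a3, a4, a5]
  have e4 : Ba * y ^ 2 ≤ -2 * y ^ 4 + C1 * s ^ 7 := by
    have a1 : Ba * y ^ 2 ≤ (-2 * y ^ 2 + C1 * s ^ 3) * y ^ 2 :=
      mul_le_mul_of_nonneg_right hBa (sq_nonneg y)
    have a2 : y ^ 2 ≤ s ^ 4 := by
      have := pow_le_pow_left₀ hy hys 2
      calc y ^ 2 ≤ (s ^ 2) ^ 2 := this
        _ = s ^ 4 := by ring
    have a3 : C1 * s ^ 3 * y ^ 2 ≤ C1 * s ^ 3 * s ^ 4 :=
      mul_le_mul_of_nonneg_left a2 (by positivity)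
    have a4 : (-2 * y ^ 2 + C1 * s ^ 3) * y ^ 2 = -2 * y ^ 4 + C1 * s ^ 3 * y ^ 2 := by ring
    have a5 : C1 * s ^ 3 * s ^ 4 = C1 * s ^ 7 := by ring
    linarith only [a1, a3, a4, a5]
  have e5 : -2 * G ≤ y ^ 4 / 4 + 4 * C3 ^ 2 * z ^ 2 := by
    have a1 := neg_abs_le G
    have a2 := sq_nonneg (y ^ 2 / 2 - 2 * C3 * z)
    have a3 : (y ^ 2 / 2 - 2 * C3 * z) ^ 2 =
        y ^ 4 / 4 + 4 * C3 ^ 2 * z ^ 2 - 2 * (C3 * (y ^ 2 * z)) := by ring
    linarith only [a1, a2, a3, hG]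
  have e6 := seven C5 s hC50 hs0
  have e7 : C5 * s ^ 7 = C1 * s ^ 7 + (Λ + A) * C4 * s ^ 7 := by rw [hC5]; ring
  have e9 : -Λ * z ^ 2 + 4 * C3 ^ 2 * z ^ 2 ≤ 0 := by
    have : -Λ * z ^ 2 + 4 * C3 ^ 2 * z ^ 2 = -z ^ 2 := by rw [hΛ]; ring
    rw [this]; exact neg_nonpos.2 (sq_nonneg z)
  linarith only [e3, e4, e5, e6, e7, e8, e9, hs8]

/-- the real inequality at the maximum point -/
theorem real_max (B C : ℝ) (hB : 0 ≤ B) (hC : 0 ≤ C) (e y g Bg Bη Γ G : ℝ) (he : 0 < e) (he1 : e ≤ 1)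
    (hg0 : 0 ≤ g) (hg : g ≤ B * y ^ 2) (hBg : Bg ≤ -y ^ 4 + C) (hBη : Bη ≤ 5) (hΓ : Γ ≤ 4)
    (hG : e ^ 2 * G = -2 * e * g * Γ)
    (h : 0 ≤ e ^ 2 * Bg + (2 * e * Bη - 2 * Γ) * g - 4 * e * G) :
    e ^ 2 * g ≤ B * (C + 34 * B + 1) := by
  have hG' : e * G = -2 * g * Γ := by
    apply mul_left_cancel₀ he.ne'; linear_combination hG
  have h1 : 0 ≤ e ^ 2 * (-y ^ 4 + C) + 34 * g := by
    have a1 : e ^ 2 * Bg ≤ e ^ 2 * (-y ^ 4 + C) := mul_le_mul_of_nonneg_left hBg (sq_nonneg e)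
    have a2 : e * Bη ≤ 5 := by nlinarith
    have a3 : (e * Bη) * g ≤ 5 * g := mul_le_mul_of_nonneg_right a2 hg0
    have a4 : Γ * g ≤ 4 * g := mul_le_mul_of_nonneg_right hΓ hg0
    nlinarith
  set q := e ^ 2 * y ^ 2 with hq
  have hq0 : 0 ≤ q := by positivity
  have he2 : e ^ 2 ≤ 1 := by nlinarith
  have h2 : e ^ 2 * g ≤ B * q := by
    have := mul_le_mul_of_nonneg_left hg (sq_nonneg e)
    rw [hq]; linarith
  have h3 : q ^ 2 ≤ C + 34 * (B * q) := by
    have a1 := mul_nonneg (sq_nonneg e) h1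
    have a2 : e ^ 2 * e ^ 2 * C ≤ C := by
      have : e ^ 2 * e ^ 2 ≤ 1 := by nlinarith [sq_nonneg e]
      nlinarith
    have a3 : q ^ 2 = e ^ 2 * e ^ 2 * y ^ 4 := by rw [hq]; ring
    nlinarith
  have h4 : q ≤ C + 34 * B + 1 := by
    by_contra hc
    push Not at hc
    nlinarith
  exact h2.trans (mul_le_mul_of_nonneg_left h4 hB)

theorem abs_sumW_le {ι : Type} [Fintype ι] (k : ℕ) {F : List ι → ℝ} {c : ℝ}
    (h : ∀ w, w.length = k → |F w| ≤ c) : |sumW k F| ≤ (Fintype.card ι : ℝ) ^ k * c := by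
  rw [abs_le]
  constructor
  · have := sumW_le k (F := fun _ => -c) (G := F) fun w hw => (abs_le.1 (h w hw)).1
    rw [sumW_const] at this; linarith
  · have := sumW_le k (F := F) (G := fun _ => c) fun w hw => (abs_le.1 (h w hw)).2
    rwa [sumW_const] at this

theorem abs_sum_le {ι : Type} [Fintype ι] {F : ι → ℝ} {c : ℝ} (h : ∀ a, |F a| ≤ c) :
    |∑ a, F a| ≤ (Fintype.card ι : ℝ) * c := by
  refine (Finset.abs_sum_le_sum_abs _ _).trans ?_
  simpa using Finset.sum_le_sum (s := Finset.univ) fun a _ => h a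

section Alg

variable {R : Type} [CommRing R] [Algebra ℝ R] {ι : Type} [Fintype ι] [DecidableEq ι]
  {S : Mov R ι}

theorem ev_sumW (ev : R →ₐ[ℝ] ℝ) (k : ℕ) (F : List ι → R) :
    ev (sumW k F) = sumW k fun w => ev (F w) :=
  map_sumW ev.toRingHom.toAddMonoidHom k F

theorem box_u (H : S.IsMov) (k : ℕ) : S.box (S.u k) =
    2 * (∑ b, sumW k fun w => S.Dw w (S.n b) * S.box (S.Dw w (S.n b))) - 2 * S.u (k + 1) := by
  let φ : R →+ R := AddMonoidHom.mk' S.box H.box_add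
  have e : ∀ b, S.box (S.nk k (S.n b)) = 2 * (sumW k fun w => S.Dw w (S.n b) *
      S.box (S.Dw w (S.n b))) - 2 * S.nk (k + 1) (S.n b) := by
    intro b
    have h1 : S.box (S.nk k (S.n b)) = sumW k fun w => S.box (S.Dw w (S.n b) * S.Dw w (S.n b)) :=
      map_sumW φ k _
    have h2 : S.nk (k + 1) (S.n b) = sumW k fun w => S.gam (S.Dw w (S.n b)) (S.Dw w (S.n b)) := by
      simp only [Mov.nk, sumW, Mov.Dw, Pre.gam, sumW_sum]
    rw [h1, h2, ← sumW_mul, sub_eq_add_neg, ← neg_mul, ← sumW_mul, ← sumW_add]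
    exact sumW_congr k fun w _ => by rw [H.box_mul]; ring
  simp only [Mov.u, H.box_sum, e, Finset.sum_sub_distrib, Finset.mul_sum]

theorem D_u (H : S.IsHyp) (k : ℕ) (a : ι) : S.D a (S.u k) =
    2 * ∑ b, sumW k fun w => S.Dw w (S.n b) * S.Dw (a :: w) (S.n b) := by
  let φ : R →+ R := AddMonoidHom.mk' (S.D a) (H.add a)
  have e : ∀ b, S.D a (S.nk k (S.n b)) =
      2 * sumW k fun w => S.Dw w (S.n b) * S.Dw (a :: w) (S.n b) := by
    intro b
    have h1 : S.D a (S.nk k (S.n b)) = sumW k fun w => S.D a (S.Dw w (S.n b) * S.Dw w (S.n b)) :=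
      map_sumW φ k _
    rw [h1, ← sumW_mul]
    exact sumW_congr k fun w _ => by rw [H.mul, Mov.Dw]; ring
  simp only [Mov.u, H.toIsDS.D_sum, e, Finset.mul_sum]

/-- a bound for the double sums -/
theorem ev_pair_le (ev : R →ₐ[ℝ] ℝ) (k : ℕ) (F G : List ι → ι → R) {c d : ℝ} (hc : 0 ≤ c)
    (hF : ∀ w b, w.length = k → |ev (F w b)| ≤ c) (hG : ∀ w b, w.length = k → |ev (G w b)| ≤ d) :
    |ev (∑ b, sumW k fun w => F w b * G w b)| ≤ (Fintype.card ι : ℝ) ^ (k + 1) * (c * d) := by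
  rw [map_sum, pow_succ', mul_assoc]
  refine abs_sum_le fun b => ?_
  rw [ev_sumW]
  refine abs_sumW_le k fun w hw => ?_
  rw [map_mul, abs_mul]
  exact mul_le_mul (hF w b hw) (hG w b hw) (abs_nonneg _) hc

theorem abs_Dn_le (ev : R →ₐ[ℝ] ℝ) (k : ℕ) (w : List ι) (b : ι) (h : w.length = k) :
    |ev (S.Dw w (S.n b))| ≤ √(ev (S.u k)) :=
  Real.abs_le_sqrt (h ▸ S.ev_Dn_sq_le ev w b)

/-- the differential inequality for `g = (Λ + u_k) u_{k+1}` -/
theorem box_g (k : ℕ) (hk : 1 ≤ k) {K : ℝ} (hK : 1 ≤ K) : ∃ Λ A C : ℝ, 1 ≤ Λ ∧ 0 ≤ A ∧ 0 ≤ C ∧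
    ∀ (R : Type) [CommRing R] [Algebra ℝ R] (S : Mov R ι), S.IsMov → S.w = 0 →
      ∀ ev : R →ₐ[ℝ] ℝ, (∀ w b, w.length ≤ k → |ev (S.Dw w (S.n b))| ≤ K) →
      ev (S.u k) ≤ A ∧
      ev (S.box ((algebraMap ℝ R Λ + S.u k) * S.u (k + 1))) ≤ -ev (S.u (k + 1)) ^ 2 + C := by
  have hK0 : 0 ≤ K := by linarith
  obtain ⟨Ca, hCa, ha⟩ := Wt.box_Dw_bound (ι := ι) k hK0
  obtain ⟨Cb, hCb, hb⟩ := Wt.box_Dw_bound (ι := ι) (k + 1) hK0
  set N : ℝ := (Fintype.card ι : ℝ) with hN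
  have hN0 : 0 ≤ N := by positivity
  obtain ⟨Λ, C, hΛ, hC, hr⟩ := real_step (N ^ (k + 1) * (K * K)) (2 * N ^ (k + 1) * K * Ca)
    (2 * N ^ (k + 2) * Cb) (N * (2 * N ^ (k + 1) * K * (2 * N ^ (k + 2)))) (by positivity)
    (by positivity) (by positivity)
  refine ⟨Λ, N ^ (k + 1) * (K * K), C, hΛ, by positivity, hC, ?_⟩
  intro R _ _ S H hw ev hB
  have hA : ev (S.u k) ≤ N ^ (k + 1) * (K * K) :=
    (le_abs_self _).trans (ev_pair_le ev k (fun w b => S.Dw w (S.n b)) (fun w b => S.Dw w (S.n b))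
      hK0 (fun w b h => hB w b h.le) (fun w b h => hB w b h.le))
  refine ⟨hA, ?_⟩
  set y := √(ev (S.u (k + 1))) with hy
  set z := √(ev (S.u (k + 2))) with hz
  have hy0 : 0 ≤ y := Real.sqrt_nonneg _
  have hz0 : 0 ≤ z := Real.sqrt_nonneg _
  have hy2 : y ^ 2 = ev (S.u (k + 1)) := Real.sq_sqrt (S.ev_u_nonneg ev _)
  have hz2 : z ^ 2 = ev (S.u (k + 2)) := Real.sq_sqrt (S.ev_u_nonneg ev _)
  obtain ⟨s, hs, hs2⟩ := root 1 (max 1 y) (le_max_left _ _)
  obtain ⟨l1, hl1, hl1e⟩ := root k (max 1 y) (le_max_left _ _)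
  obtain ⟨l2, hl2, hl2e⟩ := root (k + 1) (max 1 z) (le_max_left _ _)
  have hs2' : s ^ 2 = max 1 y := hs2
  have hl1s : l1 ≤ s := by
    have : l1 ^ 2 ≤ s ^ 2 := by
      rw [hs2', ← hl1e]; exact pow_le_pow_right₀ hl1 (by omega)
    exact le_of_sq_le_sq (by simpa only [sq] using this) (by linarith) |>.trans le_rfl
  have hl23 : l2 ^ 3 ≤ max 1 z := by rw [← hl2e]; exact pow_le_pow_right₀ hl2 (by omega)
  have low : ∀ l : ℝ, 1 ≤ l → ∀ w b, w.length ≤ k → |ev (S.Dw w (S.n b))| ≤ K * l ^ w.length :=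
    fun l hl w b h => (hB w b h).trans (le_mul_of_one_le_right hK0 (one_le_pow₀ hl))
  have mid : ∀ l : ℝ, l1 ≤ l → ∀ w b, w.length ≤ k + 1 →
      |ev (S.Dw w (S.n b))| ≤ K * l ^ w.length := by
    intro l hl w b h
    rcases Nat.lt_or_ge w.length (k + 1) with h' | h'
    · exact low l (hl1.trans hl) w b (by omega)
    · have e : w.length = k + 1 := by omega
      refine (abs_Dn_le ev _ w b e).trans ?_
      rw [e]
      calc y ≤ l1 ^ (k + 1) := hl1e ▸ le_max_right _ _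
        _ ≤ l ^ (k + 1) := pow_le_pow_left₀ (by linarith) hl _
        _ ≤ K * l ^ (k + 1) := le_mul_of_one_le_left (pow_nonneg (by linarith) _) hK
  have top : ∀ w b, w.length ≤ k + 1 + 1 →
      |ev (S.Dw w (S.n b))| ≤ K * (max l1 l2) ^ w.length := by
    intro w b h
    rcases Nat.lt_or_ge w.length (k + 2) with h' | h'
    · exact mid _ (le_max_left _ _) w b (by omega)
    · have e : w.length = k + 2 := by omega
      refine (abs_Dn_le ev _ w b e).trans ?_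
      rw [e]
      calc z ≤ l2 ^ (k + 2) := hl2e ▸ le_max_right _ _
        _ ≤ (max l1 l2) ^ (k + 2) := pow_le_pow_left₀ (by linarith) (le_max_right _ _) _
        _ ≤ K * (max l1 l2) ^ (k + 2) :=
          le_mul_of_one_le_left (pow_nonneg (le_trans (by linarith) (le_max_left l1 l2)) _) hK
  have p1 : l1 ^ (k + 2) ≤ s ^ 3 := by
    calc l1 ^ (k + 2) = l1 * l1 ^ (k + 1) := by ring
      _ = l1 * s ^ 2 := by rw [hl1e, hs2']
      _ ≤ s * s ^ 2 := mul_le_mul_of_nonneg_right hl1s (sq_nonneg s)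
      _ = s ^ 3 := by ring
  have p2 : (max l1 l2) ^ (k + 1 + 2) ≤ s ^ 4 + l2 * max 1 z := by
    have a1 : l1 ^ (k + 1 + 2) ≤ s ^ 4 := by
      calc l1 ^ (k + 1 + 2) = l1 * l1 ^ (k + 2) := by ring
        _ ≤ s * s ^ 3 := mul_le_mul hl1s p1 (pow_nonneg (by linarith) _) (by linarith)
        _ = s ^ 4 := by ring
    have a2 : l2 ^ (k + 1 + 2) = l2 * max 1 z := by rw [← hl2e]; ring
    have a3 : 0 ≤ s ^ 4 := by positivity
    have a4 : 0 ≤ l2 * max 1 z := mul_nonneg (by linarith) (le_trans zero_le_one (le_max_left _ _))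
    rcases le_total l1 l2 with h | h
    · rw [max_eq_right h]; linarith
    · rw [max_eq_left h]; linarith
  have Ba : ev (S.box (S.u k)) ≤ -2 * y ^ 2 + 2 * N ^ (k + 1) * K * Ca * s ^ 3 := by
    have := ev_pair_le ev k (fun w b => S.Dw w (S.n b)) (fun w b => S.box (S.Dw w (S.n b))) hK0
      (fun w b h => hB w b h.le) (fun w b h => (ha R S H hw ev l1 (by linarith) (mid l1 le_rfl) w b
        h).trans (mul_le_mul_of_nonneg_left p1 hCa))
    have := (le_abs_self _).trans this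
    rw [box_u H, map_sub, map_mul, map_mul, hy2, map_ofNat]
    linarith
  have Bb : ev (S.box (S.u (k + 1))) ≤
      -2 * z ^ 2 + 2 * N ^ (k + 2) * Cb * (y * (s ^ 4 + l2 * max 1 z)) := by
    have := ev_pair_le ev (k + 1) (fun w b => S.Dw w (S.n b)) (fun w b => S.box (S.Dw w (S.n b)))
      hy0 (fun w b h => abs_Dn_le ev _ w b h) (fun w b h => (hb R S H hw ev _
        (le_trans (by linarith) (le_max_left l1 l2)) top w b h).trans
        (mul_le_mul_of_nonneg_left p2 hCb))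
    have := (le_abs_self _).trans this
    rw [box_u H, map_sub, map_mul, map_mul, hz2, map_ofNat]
    linarith
  have G : |ev (S.gam (S.u k) (S.u (k + 1)))| ≤
      N * (2 * N ^ (k + 1) * K * (2 * N ^ (k + 2))) * (y ^ 2 * z) := by
    rw [Pre.gam, map_sum, mul_assoc]
    refine abs_sum_le fun a => ?_
    have a1 := ev_pair_le ev k (fun w b => S.Dw w (S.n b)) (fun w b => S.Dw (a :: w) (S.n b)) hK0
      (fun w b h => hB w b h.le) (fun w b h => abs_Dn_le ev (k + 1) _ b (by simp [h]))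
    have a2 := ev_pair_le ev (k + 1) (fun w b => S.Dw w (S.n b))
      (fun w b => S.Dw (a :: w) (S.n b)) hy0 (fun w b h => abs_Dn_le ev _ w b h)
      (fun w b h => abs_Dn_le ev (k + 2) _ b (by simp [h]))
    rw [D_u H.toIsHyp, D_u H.toIsHyp, map_mul, map_mul, map_mul, map_ofNat, abs_mul, abs_mul,
      abs_mul, abs_two]
    refine (mul_le_mul (mul_le_mul_of_nonneg_left a1 zero_le_two)
      (mul_le_mul_of_nonneg_left a2 zero_le_two) (by positivity) (by positivity)).trans ?_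
    apply le_of_eq; ring
  have key := hr (ev (S.u k)) y z s l2 (max 1 z) _ _ _ (S.ev_u_nonneg ev _) hA hy0 hs hs2' rfl hz0
    (by linarith) hl23 Ba Bb G
  have e1 : S.gam (algebraMap ℝ R Λ + S.u k) (S.u (k + 1)) = S.gam (S.u k) (S.u (k + 1)) := by
    simp only [Pre.gam, H.add, H.const, zero_add]
  rw [H.box_mul, H.box_add, H.box_const, e1, ← hy2]
  simp only [map_sub, map_add, map_mul, AlgHom.commutes, map_ofNat, zero_add, ← hy2]
  have e2 : (algebraMap ℝ ℝ) Λ = Λ := rfl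
  rw [e2]
  linarith

/-- the test function of the Bernstein argument -/
def tf (S : Mov R ι) (k : ℕ) (Λ : ℝ) (η : R) : R :=
  η * η * ((algebraMap ℝ R Λ + S.u k) * S.u (k + 1))

/-- the bound at a maximum point, unit scale -/
theorem at_max (k : ℕ) (hk : 1 ≤ k) {K : ℝ} (hK : 1 ≤ K) : ∃ Λ C : ℝ, 1 ≤ Λ ∧ 0 ≤ C ∧
    ∀ (R : Type) [CommRing R] [Algebra ℝ R] (S : Mov R ι), S.IsMov → S.w = 0 →
      ∀ ev : R →ₐ[ℝ] ℝ, (∀ w b, w.length ≤ k → |ev (S.Dw w (S.n b))| ≤ K) →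
      ∀ η : R, 0 < ev η → ev η ≤ 1 → ev (S.box η) ≤ 5 → ev (S.gam η η) ≤ 4 →
      (∀ a, ev (S.D a (tf S k Λ η)) = 0) → 0 ≤ ev (S.box (tf S k Λ η)) →
      ev (tf S k Λ η) ≤ C := by
  obtain ⟨Λ, A, C, hΛ, hA, hC, h⟩ := box_g (ι := ι) k hk hK
  refine ⟨Λ, (Λ + A) * (C + 34 * (Λ + A) + 1), hΛ, by positivity, ?_⟩
  intro R _ _ S H hw ev hB η h0 h1 hb hg hD hbox
  obtain ⟨ha, hBg⟩ := h R S H hw ev hB
  unfold tf at *
  set g := (algebraMap ℝ R Λ + S.u k) * S.u (k + 1) with hgdef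
  have hu0 := S.ev_u_nonneg ev k
  have hu1 := S.ev_u_nonneg ev (k + 1)
  have eg : ev g = (Λ + ev (S.u k)) * ev (S.u (k + 1)) := by
    simp only [hgdef, map_mul, map_add, AlgHom.commutes]; rfl
  have hy2 : √(ev (S.u (k + 1))) ^ 2 = ev (S.u (k + 1)) := Real.sq_sqrt hu1
  have e1 : ∑ a, S.D a η * S.D a (η * η * g) = η ^ 2 * S.gam η g + 2 * η * g * S.gam η η := by
    simp only [Pre.gam, H.mul, Finset.mul_sum, ← Finset.sum_add_distrib]
    exact Finset.sum_congr rfl fun a _ => by ring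
  have e2 : S.box (η * η * g) =
      η ^ 2 * S.box g + (2 * η * S.box η - 2 * S.gam η η) * g - 4 * η * S.gam η g := by
    have : S.gam (η * η) g = 2 * η * S.gam η g := by
      simp only [Pre.gam, H.mul, Finset.mul_sum]
      exact Finset.sum_congr rfl fun a _ => by ring
    rw [H.box_mul (η * η), H.box_mul η η, this]; ring
  have e3 : ev (η ^ 2 * S.gam η g + 2 * η * g * S.gam η η) = 0 := by
    rw [← e1, map_sum]
    exact Finset.sum_eq_zero fun a _ => by rw [map_mul, hD, mul_zero]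
  rw [e2] at hbox
  simp only [map_add, map_sub, map_mul, map_pow, map_ofNat] at e3 hbox
  have := real_max (Λ + A) C (by positivity) hC (ev η) √(ev (S.u (k + 1))) (ev g) (ev (S.box g))
    (ev (S.box η)) (ev (S.gam η η)) (ev (S.gam η g)) h0 h1 (by rw [eg]; positivity)
    (by rw [eg, hy2]; exact mul_le_mul_of_nonneg_right (by linarith) hu1)
    (by rw [show (4 : ℕ) = 2 * 2 by rfl, pow_mul, hy2]; exact hBg) hb hg (by linarith) hbox
  rw [map_mul, map_mul, ← sq]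
  exact this

end Alg

end Be

end Crest.Agent.N250

end
end

-- ▼ part N250/Be/Main

/-!
# Row 250: interior Bernstein estimate `BernS` (helper76)
-/

set_option autoImplicit false
set_option linter.unusedSectionVars false
open Set Filter Topology
open scoped ContDiff InnerProductSpace
open Crest.GeometryTopology.MCF

noncomputable section

namespace Crest.Agent.N250

open Crest.Agent.N222

namespace Be

section Alg

variable {R : Type} [CommRing R] [Algebra ℝ R] {ι : Type} [Fintype ι] [DecidableEq ι]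

/-- parabolic rescaling of the algebraic data -/
def scale (S : Mov R ι) (r : ℝ) : Mov R ι where
  x a := algebraMap ℝ R r⁻¹ * S.x a
  D a f := algebraMap ℝ R r * S.D a f
  T f := algebraMap ℝ R r * algebraMap ℝ R r * S.T f
  n := S.n
  V := algebraMap ℝ R r * S.V

variable {S : Mov R ι}

theorem D_cmul (H : S.IsHyp) (r : ℝ) (a : ι) (f : R) :
    S.D a (algebraMap ℝ R r * f) = algebraMap ℝ R r * S.D a f := by
  rw [H.mul, H.const]; ring

theorem T_cmul (H : S.IsMov) (r : ℝ) (f : R) :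
    S.T (algebraMap ℝ R r * f) = algebraMap ℝ R r * S.T f := by
  rw [H.Tmul, H.Tconst]; ring

theorem scale_D (r : ℝ) (a : ι) (f : R) : (scale S r).D a f = algebraMap ℝ R r * S.D a f := rfl
theorem scale_T (r : ℝ) (f : R) :
    (scale S r).T f = algebraMap ℝ R r * algebraMap ℝ R r * S.T f := rfl
theorem scale_n (r : ℝ) (a : ι) : (scale S r).n a = S.n a := rfl
theorem scale_V (r : ℝ) : (scale S r).V = algebraMap ℝ R r * S.V := rfl
theorem scale_x (r : ℝ) (a : ι) : (scale S r).x a = algebraMap ℝ R r⁻¹ * S.x a := rfl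

theorem scale_isMov (H : S.IsMov) {r : ℝ} (hr : r ≠ 0) : (scale S r).IsMov := by
  have hc : algebraMap ℝ R r * algebraMap ℝ R r⁻¹ = 1 := by
    rw [← map_mul, mul_inv_cancel₀ hr, map_one]
  have hP : ∀ a b, (scale S r).P a b = S.P a b := fun a b => by
    rw [Pre.P, scale_D, scale_x, D_cmul H.toIsHyp, ← mul_assoc, hc, one_mul]; rfl
  refine ⟨Mov.isHyp_of _ (fun a f g => ?_) (fun a f g => ?_) (fun a s => ?_) H.nn (fun a b => ?_)
    (fun f => ?_) (fun f a b => ?_), fun f g => ?_, fun f g => ?_, fun s => ?_, fun a => ?_,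
    fun a f => ?_⟩
  · simp only [scale_D, H.add]; ring
  · simp only [scale_D, H.mul]; ring
  · simp only [scale_D, H.const, mul_zero]
  · rw [hP, H.Pn]; rfl
  · have := H.toIsHyp.n_D f
    simp only [scale_D, scale_n, mul_left_comm _ (algebraMap ℝ R r), ← Finset.mul_sum, this,
      mul_zero]
  · simp only [scale_D, scale_n, Mov.B, D_cmul H.toIsHyp, mul_mul_mul_comm _ _ (algebraMap ℝ R r),
      ← Finset.mul_sum]
    have := H.toIsHyp.DD_comm f a b
    simp only [Mov.B] at this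
    rw [this]; ring
  · simp only [scale_T, H.Tadd]; ring
  · simp only [scale_T, H.Tmul]; ring
  · simp only [scale_T, H.Tconst, mul_zero]
  · rw [scale_T, scale_x, T_cmul H, H.Tx, scale_V, scale_n]
    linear_combination (algebraMap ℝ R r * S.V * S.n a) * hc
  · simp only [scale_D, scale_T, scale_n, scale_V, Mov.B, Pre.gam, T_cmul H, mul_assoc,
      D_cmul H.toIsHyp]
    have := H.comm a f
    simp only [Mov.B, Pre.gam] at this
    have e1 : ∑ c, algebraMap ℝ R r * (algebraMap ℝ R r * (S.D c S.V * (algebraMap ℝ R r * S.D c f)))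
        = algebraMap ℝ R r ^ 3 * ∑ c, S.D c S.V * S.D c f := by
      rw [Finset.mul_sum]; exact Finset.sum_congr rfl fun c _ => by ring
    have e2 : ∑ c, algebraMap ℝ R r * (S.D a (S.n c) * (algebraMap ℝ R r * S.D c f))
        = algebraMap ℝ R r ^ 2 * ∑ c, S.D a (S.n c) * S.D c f := by
      rw [Finset.mul_sum]; exact Finset.sum_congr rfl fun c _ => by ring
    rw [this, e1, e2]; ring

theorem scale_w (hw : S.w = 0) (r : ℝ) : (scale S r).w = 0 := by
  have : (scale S r).w = algebraMap ℝ R r * S.w := by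
    simp only [Mov.w, Mov.h, Mov.B, scale_D, scale_V, scale_n, mul_add, Finset.mul_sum]
  rw [this, hw, mul_zero]

theorem scale_Dw (H : S.IsHyp) (r : ℝ) (w : List ι) (f : R) :
    (scale S r).Dw w f = algebraMap ℝ R (r ^ w.length) * S.Dw w f := by
  induction w with
  | nil => simp [Mov.Dw]
  | cons a w ih =>
    rw [Mov.Dw, ih, scale_D, D_cmul H, Mov.Dw, List.length_cons, pow_succ', map_mul, mul_assoc]

theorem scale_box (H : S.IsHyp) (r : ℝ) (f : R) :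
    (scale S r).box f = algebraMap ℝ R (r ^ 2) * S.box f := by
  simp only [Mov.box, Pre.lap, scale_D, scale_T, D_cmul H, sq, map_mul, mul_sub, Finset.mul_sum,
    mul_assoc]

/-- squared distance to `y` -/
def sq2 (S : Mov R ι) (y : ι → ℝ) : R :=
  ∑ a, (S.x a - algebraMap ℝ R (y a)) * (S.x a - algebraMap ℝ R (y a))

theorem D_sq2 (H : S.IsHyp) (y : ι → ℝ) (b : ι) : S.D b (sq2 S y) =
    2 * ((S.x b - algebraMap ℝ R (y b)) - S.n b * ∑ a, S.n a * (S.x a - algebraMap ℝ R (y a))) := by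
  rw [← H.P_apply (fun a => S.x a - algebraMap ℝ R (y a)) b, sq2, H.toIsDS.D_sum, Finset.mul_sum]
  refine Finset.sum_congr rfl fun a _ => ?_
  rw [H.mul, H.toIsDS.D_sub, H.const, Pre.P]; ring

theorem gam_sq2 (H : S.IsHyp) (y : ι → ℝ) : S.gam (sq2 S y) (sq2 S y) =
    4 * (sq2 S y - (∑ a, S.n a * (S.x a - algebraMap ℝ R (y a))) ^ 2) := by
  set m := ∑ a, S.n a * (S.x a - algebraMap ℝ R (y a)) with hm
  have e : ∀ b, S.D b (sq2 S y) * S.D b (sq2 S y) =
      4 * ((S.x b - algebraMap ℝ R (y b)) * (S.x b - algebraMap ℝ R (y b)))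
      - 8 * m * (S.n b * (S.x b - algebraMap ℝ R (y b))) + 4 * m ^ 2 * (S.n b * S.n b) := by
    intro b; rw [D_sq2 H, ← hm]; ring
  simp only [Pre.gam, e, Finset.sum_add_distrib, Finset.sum_sub_distrib, ← Finset.mul_sum, ← hm,
    H.nn]
  rw [sq2]; ring

theorem box_sq2 (H : S.IsMov) (hw : S.w = 0) (y : ι → ℝ) :
    S.box (sq2 S y) = -2 * ((Fintype.card ι : R) - 1) := by
  have e : ∀ a, S.box ((S.x a - algebraMap ℝ R (y a)) * (S.x a - algebraMap ℝ R (y a))) =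
      -2 * S.P a a := by
    intro a
    have : S.gam (S.x a - algebraMap ℝ R (y a)) (S.x a - algebraMap ℝ R (y a)) = S.P a a := by
      rw [← H.toIsDS.PP a a]
      simp only [Pre.gam, H.toIsDS.D_sub, H.const, sub_zero]
      exact Finset.sum_congr rfl fun b _ => by rw [H.symm a b]; rfl
    rw [H.box_mul, H.box_sub, H.mcf_x hw, H.box_const, this]; ring
  rw [sq2, H.box_sum, ← H.toIsHyp.tr_P, Finset.mul_sum]
  exact Finset.sum_congr rfl fun a _ => e a

/-- the cut-off function -/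
def cut (S : Mov R ι) (y : ι → ℝ) (τ : R) : R := τ - sq2 S y

theorem box_cut (H : S.IsMov) (hw : S.w = 0) (y : ι → ℝ) {τ : R} (h1 : S.T τ = 1)
    (h2 : ∀ a, S.D a τ = 0) : S.box (cut S y τ) = 1 + 2 * ((Fintype.card ι : R) - 1) := by
  rw [cut, H.box_sub, box_sq2 H hw]
  simp only [Mov.box, Pre.lap, h1, h2, H.toIsDS.D_zero, Finset.sum_const_zero]; ring

theorem gam_cut (H : S.IsHyp) (y : ι → ℝ) {τ : R} (h2 : ∀ a, S.D a τ = 0) :
    S.gam (cut S y τ) (cut S y τ) = S.gam (sq2 S y) (sq2 S y) := by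
  simp only [Pre.gam, cut, H.toIsDS.D_sub, h2, zero_sub, neg_mul_neg]

end Alg

open Mv

theorem PC_sub {X p : ST} {r : ℝ} (hr : 0 < r) (hp : p ∈ PC X (r / 2)) : PC p (r / 2) ⊆ PC X r := by
  rintro q ⟨h1, h2, h3⟩
  obtain ⟨h4, h5, h6⟩ := hp
  refine ⟨?_, by nlinarith, h3.trans h6⟩
  rw [Metric.mem_ball] at *
  linarith [dist_triangle q.1 p.1 X.1]

theorem norm_sq_eq (v : E) : ‖v‖ ^ 2 = ∑ a, v a * v a := by
  rw [← real_inner_self_eq_norm_sq, inner_eq_sum]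

/-- the step of the induction -/
theorem step (k : ℕ) (hk : 1 ≤ k) {K : ℝ} (hK : 1 ≤ K) : ∃ C : ℝ, 0 ≤ C ∧
    ∀ (F : Mv) (X : ST) (r : ℝ), F.IsMCF → 0 < r → F.Proper (PC X r) → X ∈ F.M →
      (∀ p ∈ F.M ∩ PC X r, ∀ w b, w.length ≤ k → |F.DL w (F.nu b) p| ≤ K / r ^ w.length) →
      ∀ w b, w.length = k + 1 → |F.DL w (F.nu b) X| ≤ C / r ^ w.length := by
  obtain ⟨Λ, C, hΛ, hC, h⟩ := at_max (ι := Fin 3) k hk hK
  refine ⟨√(2 * C), Real.sqrt_nonneg _, ?_⟩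
  intro F X r hF hr hP hX hB
  have hR := hF.1
  set S := scale hR.mov r with hS
  have HS : S.IsMov := scale_isMov hR.isMov hr.ne'
  have hw : S.w = 0 := scale_w hF.mov_w r
  have evD : ∀ {p} (hp : p ∈ F.M) w b, ev hp (S.Dw w (S.n b)) = r ^ w.length * F.DL w (F.nu b) p := by
    intro p hp w b
    rw [hS, scale_Dw hR.isHyp, scale_n, hR.mov_n, hR.mov_Dw, map_mul, AlgHom.commutes, ev_mk]; rfl
  let τ : F.SmR := algebraMap ℝ _ (3 / 4 - X.2 / r ^ 2) +
    algebraMap ℝ _ (1 / r ^ 2) * mk' (fun q => q.2) sm_t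
  have τT : S.T τ = 1 := by
    rw [hS, scale_T, hR.isMov.Tadd, hR.isMov.Tconst, T_cmul hR.isMov, hR.mov_T]
    refine SmR_ext fun p hp => ?_
    have : F.Dt (fun q => q.2) p = 1 := hR.td_t hp (hR.tg_vel hp)
    simp only [map_mul, map_add, AlgHom.commutes, ev_mk, this, map_zero, map_one,
      Algebra.algebraMap_self, RingHom.id_apply]
    field_simp
    simp
  have τD : ∀ a, S.D a τ = 0 := fun a => by
    rw [hS, scale_D, hR.isMov.add, hR.isMov.const, D_cmul hR.isHyp, hR.mov_D]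
    refine SmR_ext fun p hp => ?_
    have : F.D a (fun q => q.2) p = 0 := hR.td_t hp (hR.tg_PL hp _)
    simp only [map_mul, map_add, ev_mk, this, map_zero, mul_zero, add_zero]
  let y : Fin 3 → ℝ := fun a => r⁻¹ * X.1 a
  have evq : ∀ {p} (hp : p ∈ F.M), ev hp (sq2 S y) = ‖p.1 - X.1‖ ^ 2 / r ^ 2 := by
    intro p hp
    rw [norm_sq_eq, sq2, map_sum, Finset.sum_div]
    refine Finset.sum_congr rfl fun a _ => ?_
    simp only [hS, scale_x, hR.mov_x, map_mul, map_sub, AlgHom.commutes, ev_mk,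
      Algebra.algebraMap_self, RingHom.id_apply, PiLp.sub_apply, y]
    change (r⁻¹ * p.1 a - _) * (r⁻¹ * p.1 a - _) = _
    field_simp
  let e : ST → ℝ := fun p => 3 / 4 - (X.2 - p.2) / r ^ 2 - ‖p.1 - X.1‖ ^ 2 / r ^ 2
  have eve : ∀ {p} (hp : p ∈ F.M), ev hp (cut S y τ) = e p := by
    intro p hp
    rw [cut, map_sub, evq hp]
    simp only [τ, e, map_mul, map_add, AlgHom.commutes, ev_mk, Algebra.algebraMap_self,
      RingHom.id_apply]
    ring
  have ec : Continuous e := by fun_prop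
  have hr2 : 0 < r ^ 2 := by positivity
  let L : Set ST := {p | p.2 ≤ X.2 ∧ 0 ≤ e p}
  have Lb : ∀ p ∈ L, ‖p.1 - X.1‖ ^ 2 ≤ 3 / 4 * r ^ 2 ∧ X.2 - p.2 ≤ 3 / 4 * r ^ 2 := by
    rintro p ⟨h1, h2⟩
    have a1 : 0 ≤ (X.2 - p.2) / r ^ 2 := div_nonneg (by linarith) hr2.le
    have a2 : 0 ≤ ‖p.1 - X.1‖ ^ 2 / r ^ 2 := by positivity
    simp only [e] at h2
    exact ⟨(div_le_iff₀ hr2).1 (by linarith), (div_le_iff₀ hr2).1 (by linarith)⟩
  have LP : L ⊆ PC X r := fun p hp => by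
    obtain ⟨a1, a2⟩ := Lb p hp
    refine ⟨?_, by linarith, hp.1⟩
    rw [mem_ball_iff_norm]
    exact lt_of_pow_lt_pow_left₀ 2 hr.le (by linarith)
  have Lc : IsCompact L := by
    refine ((isCompact_closedBall X.1 r).prod (isCompact_Icc (a := X.2 - r ^ 2) (b := X.2))).of_isClosed_subset
      ((isClosed_le continuous_snd continuous_const).inter (isClosed_le continuous_const ec)) ?_
    intro p hp
    obtain ⟨a1, a2, a3⟩ := LP hp
    exact ⟨Metric.ball_subset_closedBall a1, a2.le, a3⟩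
  have Kc : IsCompact (F.M ∩ L) := by
    have : F.M ∩ L = L ∩ closure F.M := by
      ext p
      exact ⟨fun hp => ⟨hp.2, subset_closure hp.1⟩, fun hp => ⟨hP p hp.2 (LP hp.1), hp.1⟩⟩
    rw [this]; exact Lc.inter_right isClosed_closure
  have eX : e X = 3 / 4 := by simp [e]
  have XL : X ∈ L := ⟨le_rfl, by rw [eX]; norm_num⟩
  obtain ⟨g, hg, hge⟩ := exists_mk (tf S k Λ (cut S y τ))
  obtain ⟨p, ⟨hpM, hpL⟩, hmax⟩ := Kc.exists_isMaxOn ⟨X, hX, XL⟩
    (hg.continuousOn.mono inter_subset_left)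
  have gp : g p ≤ C := by
    rw [← ev_mk hpM g hg, ← hge]
    rcases hpL.2.eq_or_lt with h0 | h0
    · rw [tf, map_mul, map_mul, eve hpM, ← h0]; simpa using hC
    have loc : IsLocalMaxOn g (F.M ∩ {q | q.2 ≤ p.2}) p := by
      have : ∀ᶠ q in 𝓝 p, 0 < e q := ec.continuousAt.eventually (lt_mem_nhds h0)
      filter_upwards [nhdsWithin_le_nhds this, self_mem_nhdsWithin] with q h1 h2
        using hmax ⟨h2.1, le_trans h2.2 hpL.1, h1.le⟩
    have loc' : IsLocalMaxOn g (F.M ∩ {q | q.2 = p.2}) p :=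
      loc.filter_mono (nhdsWithin_mono _ fun q hq => ⟨hq.1, le_of_eq hq.2⟩)
    obtain ⟨a1, a2⟩ := Lb p hpL
    refine h _ S HS hw (ev hpM) (fun w b hl => ?_) _ (by rwa [eve hpM]) ?_ ?_ ?_ (fun a => ?_) ?_
    · rw [evD hpM, abs_mul, abs_of_pos (by positivity), mul_comm, ← le_div_iff₀ (by positivity)]
      exact hB p ⟨hpM, LP hpL⟩ w b hl
    · rw [eve hpM]
      have b1 : 0 ≤ (X.2 - p.2) / r ^ 2 := div_nonneg (by linarith [hpL.1]) hr2.le
      have b2 : 0 ≤ ‖p.1 - X.1‖ ^ 2 / r ^ 2 := by positivity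
      simp only [e]; linarith
    · rw [box_cut HS hw y τT τD]
      simp only [map_add, map_mul, map_sub, map_one, map_ofNat, map_natCast, Fintype.card_fin]
      norm_num
    · rw [gam_cut HS.toIsHyp y τD, gam_sq2 HS.toIsHyp, map_mul, map_sub, map_pow, evq hpM, map_ofNat]
      have b1 : ‖p.1 - X.1‖ ^ 2 / r ^ 2 ≤ 3 / 4 := (div_le_iff₀ hr2).2 a1
      nlinarith [sq_nonneg (ev hpM (∑ a, S.n a * (S.x a - algebraMap ℝ _ (y a))))]
    · rw [hge, hS, scale_D, hR.mov_D, map_mul, ev_mk,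
        (MP.max_slice hR hpM ((hg p hpM).of_le (by norm_cast)) loc').1 a, mul_zero]
    · rw [hge, hS, scale_box hR.isHyp, hR.mov_box, map_mul, ev_mk, AlgHom.commutes]
      exact mul_nonneg hr2.le (MP.max_box hR hpM ((hg p hpM).of_le (by norm_cast)) loc)
  have gX : g X ≤ C := (hmax ⟨hX, XL⟩).trans gp
  rw [← ev_mk hX g hg, ← hge, tf, map_mul, map_mul, map_mul, map_add, eve hX, eX,
    AlgHom.commutes] at gX
  have u0 := S.ev_u_nonneg (ev hX) k
  have u1 := S.ev_u_nonneg (ev hX) (k + 1)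
  have e2 : (algebraMap ℝ ℝ) Λ = Λ := rfl
  rw [e2] at gX
  have hu : ev hX (S.u (k + 1)) ≤ 2 * C := by nlinarith [mul_nonneg u0 u1]
  intro w b hl
  have := (abs_Dn_le (ev hX) _ w b hl).trans (Real.sqrt_le_sqrt hu)
  rwa [evD hX, abs_mul, abs_of_pos (by positivity), mul_comm, ← le_div_iff₀ (by positivity)] at this

/-- the estimate at the centre -/
theorem centre (k : ℕ) : ∃ K : ℝ, 1 ≤ K ∧
    ∀ (F : Mv) (X : ST) (r : ℝ), F.IsMCF → 0 < r → F.Proper (PC X r) →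
      (∀ p ∈ F.M ∩ PC X r, F.A2 p ≤ 1 / r ^ 2) → X ∈ F.M →
      ∀ w b, w.length ≤ k + 1 → |F.DL w (F.nu b) X| ≤ K / r ^ w.length := by
  induction k with
  | zero =>
    refine ⟨1, le_rfl, fun F X r hF hr hP hA hX w b hl => ?_⟩
    match w, hl with
    | [], _ =>
      have := hF.1.norm_n hX
      simpa [DL, nu, this] using (PiLp.norm_apply_le (F.n X) b)
    | [a], _ =>
      have h1 := hA X ⟨hX, Metric.mem_ball_self hr, sub_lt_self _ (by positivity), le_rfl⟩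
      have h2 : F.A a b X * F.A a b X ≤ F.A2 X := by
        simp only [A2, Finset.sum_apply, Pi.mul_apply]
        refine le_trans ?_ (Finset.single_le_sum (f := fun a => ∑ b, F.A a b X * F.A a b X)
          (fun a _ => Finset.sum_nonneg fun b _ => mul_self_nonneg _) (Finset.mem_univ a))
        exact Finset.single_le_sum (f := fun b => F.A a b X * F.A a b X)
          (fun b _ => mul_self_nonneg _) (Finset.mem_univ b)
      change |F.A a b X| ≤ 1 / r ^ 1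
      refine abs_le_of_sq_le_sq' ?_ (by positivity) |> abs_le.2
      rw [sq, pow_one, div_pow, one_pow]
      exact h2.trans h1
  | succ k ih =>
    obtain ⟨K, hK, ih⟩ := ih
    obtain ⟨C, hC, hs⟩ := step (k + 1) (by omega) hK
    refine ⟨max K (C * 2 ^ (k + 2)), hK.trans (le_max_left _ _), ?_⟩
    intro F X r hF hr hP hA hX w b hl
    rcases Nat.lt_or_ge w.length (k + 2) with h' | h'
    · exact (ih F X r hF hr hP hA hX w b (by omega)).trans
        (div_le_div_of_nonneg_right (le_max_left _ _) (by positivity))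
    have e : w.length = k + 1 + 1 := by omega
    have hX2 : X ∈ PC X (r / 2) :=
      ⟨Metric.mem_ball_self (by positivity), sub_lt_self _ (by positivity), le_rfl⟩
    have := hs F X (r / 2) hF (by positivity) (fun p h1 h2 => hP p h1 (PC_sub hr hX2 h2)) hX
      (fun p hp w b hl => ih F p (r / 2) hF (by positivity)
        (fun q h1 h2 => hP q h1 (PC_sub hr hp.2 h2))
        (fun q hq => (hA q ⟨hq.1, PC_sub hr hp.2 hq.2⟩).trans
          (one_div_le_one_div_of_le (by positivity) (by nlinarith))) hp.1 w b hl) w b e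
    refine this.trans ?_
    rw [e, div_pow, div_div_eq_mul_div]
    exact div_le_div_of_nonneg_right (le_max_right _ _) (by positivity)

end Be

theorem bernS_holds : BernS := by
  intro k
  obtain ⟨K, hK, h⟩ := Be.centre k
  refine ⟨K * 2 ^ k, fun F X r hF hr hP hA p hp b w hl => ?_⟩
  have := h F p (r / 2) hF (by positivity) (fun q h1 h2 => hP q h1 (Be.PC_sub hr hp.2 h2))
    (fun q hq => (hA q ⟨hq.1, Be.PC_sub hr hp.2 hq.2⟩).trans
      (one_div_le_one_div_of_le (by positivity) (by nlinarith))) hp.1 w b (by omega)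
  rwa [hl, div_pow, div_div_eq_mul_div] at this

end Crest.Agent.N250

end
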